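import Vale.Agent.P192.Bounded

namespace Vale.Agent.Results.P192.BoundedAutomata

open Subgroup Vale.Agent.P192

universe u

/-- Every finitely presented periodic subgroup of a group generated by finitely many bounded-type
automorphisms of a regular rooted tree (in particular by a bounded automaton) is finite. -/
theorem result :
    ∀ (X : Type u) [Finite X] (S : Set (Equiv.Perm (ℕ → X))),
      S.Finite → (∀ g ∈ S, BoundedType g) →
      ∀ H : Subgroup (Equiv.Perm (ℕ → X)), H ≤ closure S →
        ∀ [Group.IsFinitelyPresented H], IsMulTorsion H → Finite H :=
  fun _ _ S hS hbd H hH _ hper => periodic_finite_bounded S hS hbd H hH hper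

end Vale.Agent.Results.P192.BoundedAutomata
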