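import Vale.Agent.P192.Cuts

namespace Vale.Agent.Results.P192.LinearSchreierFinite

open Subgroup Vale.Agent.P196 Vale.Agent.P192

universe u v

/-- Schreier graphs of finitely presented periodic groups.  A large ball with at most `C n` points
is a whole orbit; bounded-size cuts around every radius bound the orbit; finitely presented
periodic subgroups of groups whose orbital graphs have such cuts are finite.  More generally a
finitely presented group escaping these conclusions virtually maps onto `ℤ`. -/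
theorem result :
    (∀ (G : Type u) [Group G] [Group.IsFinitelyPresented G] (S : Set G),
      closure S = ⊤ → S.Finite → ∀ C : ℕ, ∃ R : ℕ, ∀ (Ω : Type v) [MulAction G Ω] (x : Ω)
        (n : ℕ), R ≤ n → (ball S x n).ncard ≤ C * n →
        MulAction.orbit G x = ball S x n ∨
          ∃ H : Subgroup G, H.FiniteIndex ∧ ∃ χ : H →* Multiplicative ℤ, χ ≠ 1) ∧
    (∀ (G : Type u) [Group G] [Group.IsFinitelyPresented G] (S : Set G),
      closure S = ⊤ → S.Finite → ∀ (B : ℕ) (φ : ℕ → ℕ), ∃ N : ℕ,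
      ∀ (Ω : Type v) [MulAction G Ω] (x : Ω), HasCuts S B φ x →
        ((MulAction.orbit G x).Finite ∧ (MulAction.orbit G x).ncard ≤ N) ∨
          ∃ H : Subgroup G, H.FiniteIndex ∧ ∃ χ : H →* Multiplicative ℤ, χ ≠ 1) ∧
    (∀ (G : Type u) [Group G], IsMulTorsion G →
      ¬∃ H : Subgroup G, H.FiniteIndex ∧ ∃ χ : H →* Multiplicative ℤ, χ ≠ 1) ∧
    (∀ (Γ : Type u) [Group Γ] (Ω : Type v) [MulAction Γ Ω] [FaithfulSMul Γ Ω] (S : Set Γ),
      S.Finite → closure S = ⊤ → ∀ (B : ℕ) (φ : ℕ → ℕ), (∀ x : Ω, HasCuts S B φ x) →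
      ∀ (H : Subgroup Γ) [Group.IsFinitelyPresented H], IsMulTorsion H → Finite H) ∧
    (∀ (Γ : Type u) [Group Γ] (Ω : Type v) [MulAction Γ Ω] (S : Set Γ) (C : ℕ) (x : Ω),
      S.Finite → (∀ n : ℕ, 0 < n → (ball S x n).ncard ≤ C * n) →
      HasCuts S (3 * C) (fun n => C * (2 * n + 3)) x) :=
  ⟨fun _ _ _ _ hgen hS C => orbit_eq_ball.{u, v} hgen hS C,
    fun _ _ _ _ hgen hS B φ => orbit_bounded_of_cuts.{u, v} hgen hS B φ,
    fun _ _ hG => not_virtIndicable_of_isTorsion hG,
    fun _ _ _ _ _ _ hS hgen _ _ h H _ hH => periodic_subgroup_finite_of_cuts hS hgen h H hH,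
    fun _ _ _ _ _ _ _ hS h => hasCuts_of_linear hS h⟩

end Vale.Agent.Results.P192.LinearSchreierFinite
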